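import Vale.Agent.P181.DG.Defs2

set_option autoImplicit false

/-!
# P181, EX: the exact form of `LowT`, and Foulkes' inequality for `b - a ≥ (w / a) polylog`

If `b (S - 1) ≥ 2 w` then the first cohomology of the translations `D_k = ∑ ∂ / ∂ x_(k, j)` (sum
over the small columns) vanishes in all the graded pieces, so nothing is lost in `LowT`.
-/

open MvPolynomial

namespace Vale.Agent.P181.EX

open Vale.Agent.P181.T4 (HW rowOp ex low)
open Vale.Agent.P181.H280 (plethMult)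
open Vale.Agent.P181.H463 (gt)
open Vale.Agent.P181.SZ (TI)
open Vale.Agent.P181.PL (dn)
open Vale.Agent.P181.DG

section spaces

variable (m S : ℕ) (σ : Type) [Fintype σ] (d : σ → ℕ) (t : ℕ) (mu : Fin m → ℕ)

/-- The degrees: `d j` in the large column `j`, less than `S` in the small columns. -/
def Deg (f : MvPolynomial (Fin m × (σ ⊕ Fin t)) ℂ) : Prop :=
  ∀ v, coeff v f ≠ 0 → (∀ j : σ, ∑ i, v (i, Sum.inl j) = d j) ∧
    ∀ j : Fin t, ∑ i, v (i, Sum.inr j) < S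

/-- Symmetric in the small columns and in the large columns of equal degree. -/
def Sy (f : MvPolynomial (Fin m × (σ ⊕ Fin t)) ℂ) : Prop :=
  ∀ (e : Equiv.Perm σ) (s : Equiv.Perm (Fin t)), (∀ j, d (e j) = d j) →
    rename (fun p : Fin m × (σ ⊕ Fin t) => (p.1, Sum.map e s p.2)) f = f

/-- `PKT` without the translation invariance. -/
noncomputable def MK : Submodule ℂ (MvPolynomial (Fin m × (σ ⊕ Fin t)) ℂ) where
  carrier := {f | f ∈ HW m (σ ⊕ Fin t) mu ∧ Deg m S σ d t f ∧ Sy m σ d t f}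
  zero_mem' := ⟨zero_mem _, fun v hv => absurd (coeff_zero v) hv, fun e s _ => map_zero _⟩
  add_mem' := by
    rintro f g ⟨hf1, hf2, hf3⟩ ⟨hg1, hg2, hg3⟩
    refine ⟨add_mem hf1 hg1, fun v hv => ?_, fun e s he => by
      rw [map_add, hf3 e s he, hg3 e s he]⟩
    rw [coeff_add] at hv
    by_cases h : coeff v f = 0
    · rw [h, zero_add] at hv
      exact hg2 v hv
    · exact hf2 v h
  smul_mem' := by
    rintro c f ⟨hf1, hf2, hf3⟩
    refine ⟨Submodule.smul_mem _ c hf1, fun v hv => ?_, fun e s he => ?_⟩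
    · rw [coeff_smul, smul_eq_mul] at hv
      exact hf2 v (right_ne_zero_of_mul hv)
    · rw [map_smul, hf3 e s he]

/-- The closed families `g_k` (for example `g_k = D_k f`, `f ∈ MK`): `g_k` of weight
`mu - e_k`, `E_(s i) g_k = - δ_(k s) g_i` for `s < i`, and `D_i g_k = D_k g_i`. -/
noncomputable def CK : Submodule ℂ (Fin m → MvPolynomial (Fin m × (σ ⊕ Fin t)) ℂ) where
  carrier := {g | (∀ k v, coeff v (g k) ≠ 0 → ∀ i, ∑ j, v (i, j) + (if i = k then 1 else 0) =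
      mu i) ∧ (∀ k, Deg m S σ d t (g k)) ∧ (∀ k, Sy m σ d t (g k)) ∧
    (∀ s i : Fin m, s < i → ∀ k, rowOp s i (g k) = if k = s then - g i else 0) ∧
    ∀ i k, ∑ j : Fin t, pderiv (i, (Sum.inr j : σ ⊕ Fin t)) (g k) =
      ∑ j : Fin t, pderiv (k, (Sum.inr j : σ ⊕ Fin t)) (g i)}
  zero_mem' := ⟨fun k v hv => absurd (coeff_zero v) hv, fun k v hv => absurd (coeff_zero v) hv,
    fun k e s _ => map_zero _, fun s i _ k => by simp, fun i k => by simp⟩
  add_mem' := by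
    rintro f g ⟨hf1, hf2, hf3, hf4, hf5⟩ ⟨hg1, hg2, hg3, hg4, hg5⟩
    refine ⟨fun k v hv => ?_, fun k v hv => ?_, fun k e s he => ?_, fun s i h k => ?_,
      fun i k => ?_⟩
    · rw [Pi.add_apply, coeff_add] at hv
      by_cases h : coeff v (f k) = 0
      · rw [h, zero_add] at hv
        exact hg1 k v hv
      · exact hf1 k v h
    · rw [Pi.add_apply, coeff_add] at hv
      by_cases h : coeff v (f k) = 0
      · rw [h, zero_add] at hv
        exact hg2 k v hv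
      · exact hf2 k v h
    · rw [Pi.add_apply, map_add, hf3 k e s he, hg3 k e s he]
    · rw [Pi.add_apply, map_add, hf4 s i h k, hg4 s i h k, Pi.add_apply]
      split_ifs
      · abel
      · rw [add_zero]
    · simp only [Pi.add_apply, map_add, Finset.sum_add_distrib]
      rw [hf5 i k, hg5 i k]
  smul_mem' := by
    rintro c f ⟨hf1, hf2, hf3, hf4, hf5⟩
    refine ⟨fun k v hv => ?_, fun k v hv => ?_, fun k e s he => ?_, fun s i h k => ?_,
      fun i k => ?_⟩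
    · rw [Pi.smul_apply, coeff_smul, smul_eq_mul] at hv
      exact hf1 k v (right_ne_zero_of_mul hv)
    · rw [Pi.smul_apply, coeff_smul, smul_eq_mul] at hv
      exact hf2 k v (right_ne_zero_of_mul hv)
    · rw [Pi.smul_apply, map_smul, hf3 k e s he]
    · rw [Pi.smul_apply, map_smul, hf4 s i h k, Pi.smul_apply]
      split_ifs
      · rw [smul_neg]
      · rw [smul_zero]
    · have h : ∀ (i k : Fin m), ∑ j : Fin t, pderiv (i, (Sum.inr j : σ ⊕ Fin t)) ((c • f) k) =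
          c • ∑ j : Fin t, pderiv (i, (Sum.inr j : σ ⊕ Fin t)) (f k) := by
        intro i k
        rw [Finset.smul_sum]
        exact Finset.sum_congr rfl fun j _ => Derivation.map_smul _ _ _
      rw [h, h, hf5 i k]

end spaces

section whole

variable (b a m : ℕ) (mu : Fin m → ℕ)

/-- `TI b a m mu` without the translation invariance. -/
noncomputable def QM : Submodule ℂ (MvPolynomial (Fin m × Fin b) ℂ) where
  carrier := {f | f ∈ HW m (Fin b) mu ∧
    (∀ e : Equiv.Perm (Fin b), rename (fun p : Fin m × Fin b => (p.1, e p.2)) f = f) ∧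
    ∀ v, coeff v f ≠ 0 → ∀ j, ∑ i, v (i, j) ≤ a}
  zero_mem' := ⟨zero_mem _, fun _ => map_zero _, fun v hv => absurd (coeff_zero v) hv⟩
  add_mem' := by
    rintro f g ⟨hf1, hf2, hf3⟩ ⟨hg1, hg2, hg3⟩
    refine ⟨add_mem hf1 hg1, fun e => by rw [map_add, hf2 e, hg2 e], fun v hv j => ?_⟩
    rw [coeff_add] at hv
    by_cases h : coeff v f = 0
    · rw [h, zero_add] at hv
      exact hg3 v hv j
    · exact hf3 v h j
  smul_mem' := by
    rintro c f ⟨hf1, hf2, hf3⟩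
    refine ⟨Submodule.smul_mem _ c hf1, fun e => by rw [map_smul, hf2 e], fun v hv j => ?_⟩
    rw [coeff_smul, smul_eq_mul] at hv
    exact hf3 v (right_ne_zero_of_mul hv) j

/-- The closed families, all the columns. -/
noncomputable def QC : Submodule ℂ (Fin m → MvPolynomial (Fin m × Fin b) ℂ) where
  carrier := {g | (∀ k v, coeff v (g k) ≠ 0 → ∀ i, ∑ j, v (i, j) + (if i = k then 1 else 0) =
      mu i) ∧ (∀ k v, coeff v (g k) ≠ 0 → ∀ j, ∑ i, v (i, j) ≤ a) ∧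
    (∀ k (e : Equiv.Perm (Fin b)), rename (fun p : Fin m × Fin b => (p.1, e p.2)) (g k) = g k) ∧
    (∀ s i : Fin m, s < i → ∀ k, rowOp s i (g k) = if k = s then - g i else 0) ∧
    ∀ i k, ∑ j : Fin b, pderiv (i, j) (g k) = ∑ j : Fin b, pderiv (k, j) (g i)}
  zero_mem' := ⟨fun k v hv => absurd (coeff_zero v) hv, fun k v hv => absurd (coeff_zero v) hv,
    fun k e => map_zero _, fun s i _ k => by simp, fun i k => by simp⟩
  add_mem' := by
    rintro f g ⟨hf1, hf2, hf3, hf4, hf5⟩ ⟨hg1, hg2, hg3, hg4, hg5⟩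
    refine ⟨fun k v hv => ?_, fun k v hv => ?_, fun k e => ?_, fun s i h k => ?_,
      fun i k => ?_⟩
    · rw [Pi.add_apply, coeff_add] at hv
      by_cases h : coeff v (f k) = 0
      · rw [h, zero_add] at hv
        exact hg1 k v hv
      · exact hf1 k v h
    · rw [Pi.add_apply, coeff_add] at hv
      by_cases h : coeff v (f k) = 0
      · rw [h, zero_add] at hv
        exact hg2 k v hv
      · exact hf2 k v h
    · rw [Pi.add_apply, map_add, hf3 k e, hg3 k e]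
    · rw [Pi.add_apply, map_add, hf4 s i h k, hg4 s i h k, Pi.add_apply]
      split_ifs
      · abel
      · rw [add_zero]
    · simp only [Pi.add_apply, map_add, Finset.sum_add_distrib]
      rw [hf5 i k, hg5 i k]
  smul_mem' := by
    rintro c f ⟨hf1, hf2, hf3, hf4, hf5⟩
    refine ⟨fun k v hv => ?_, fun k v hv => ?_, fun k e => ?_, fun s i h k => ?_,
      fun i k => ?_⟩
    · rw [Pi.smul_apply, coeff_smul, smul_eq_mul] at hv
      exact hf1 k v (right_ne_zero_of_mul hv)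
    · rw [Pi.smul_apply, coeff_smul, smul_eq_mul] at hv
      exact hf2 k v (right_ne_zero_of_mul hv)
    · rw [Pi.smul_apply, map_smul, hf3 k e]
    · rw [Pi.smul_apply, map_smul, hf4 s i h k, Pi.smul_apply]
      split_ifs
      · rw [smul_neg]
      · rw [smul_zero]
    · have h : ∀ (i k : Fin m), ∑ j : Fin b, pderiv (i, j) ((c • f) k) =
          c • ∑ j : Fin b, pderiv (i, j) (f k) := by
        intro i k
        rw [Finset.smul_sum]
        exact Finset.sum_congr rfl fun j _ => Derivation.map_smul _ _ _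
      rw [h, h, hf5 i k]

end whole

/-- **(E1)** vanishing of `H^1`: every closed family is `D_k f`, if `2 (w - u) ≤ t (S - 1)`. -/
def H1 : Prop := ∀ (m S : ℕ) (σ : Type) [Fintype σ] (d : σ → ℕ) (t : ℕ) (mu : Fin m → ℕ),
  1 ≤ S → 2 * ∑ i, mu i ≤ t * (S - 1) + 2 * ∑ j, d j →
  Module.finrank ℂ (CK m S σ d t mu) + Module.finrank ℂ (PKT m S σ d t mu) ≤
    Module.finrank ℂ (MK m S σ d t mu)

open scoped Classical in
/-- **(E2)** the leading content of a closed family is closed. -/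
def UpC : Prop := ∀ (b a m S : ℕ) (mu : Fin m → ℕ), 1 ≤ S →
  Module.finrank ℂ (QC b a m mu) ≤
    ∑ kap ∈ (KT (∑ i, mu i) S).filter (fun k => Multiset.card k ≤ b ∧ ∀ x ∈ k, x ≤ a),
      Module.finrank ℂ (CK m S (Fin kap.toList.length) (fun j => kap.toList.get j)
        (b - Multiset.card kap) mu)

open scoped Classical in
/-- **(E3)** symmetrisation. -/
def LowM : Prop := ∀ (b a m S : ℕ) (mu : Fin m → ℕ), 1 ≤ S → S ≤ a + 1 →
  ∑ kap ∈ (KT (∑ i, mu i) S).filter (fun k => Multiset.card k ≤ b ∧ ∀ x ∈ k, x ≤ a),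
      Module.finrank ℂ (MK m S (Fin kap.toList.length) (fun j => kap.toList.get j)
        (b - Multiset.card kap) mu) ≤ Module.finrank ℂ (QM b a m mu)

open scoped Classical in
/-- **(E4)** the exact lower bound. -/
def LowE : Prop := ∀ (a b m S : ℕ) (mu : Fin m → ℕ), 2 ≤ S → S ≤ a + 1 →
  2 * ∑ i, mu i ≤ b * (S - 1) →
  ∑ kap ∈ (KT (∑ i, mu i) S).filter (fun k => Multiset.card k ≤ b ∧ ∀ x ∈ k, x ≤ a),
      NT m S mu kap (b - Multiset.card kap) ≤ Module.finrank ℂ (TI b a m mu)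

/-- The potential of a content. -/
def psi (a c : ℕ) (k : Multiset ℕ) : ℕ := (k.map fun x => if a < x then (x - a) + c else 0).sum

/-- The bad states, with a bound for the number of letters. -/
def BadE (a b J S K : ℕ) (p : Multiset ℕ × ℕ) : Prop :=
  (∃ x ∈ p.1, a < x) ∧ (∀ x ∈ p.1, x ≤ b) ∧ J ≤ Multiset.card p.1 + p.2 ∧ 1 ≤ p.2 ∧ p.2 ≤ a ∧
    S * (Multiset.card p.1 + p.2) + psi a (K * S) p.1 ≤ S * b

/-- The good states: sizes `≤ a`, more than `a` letters and at most `b` letters in all. -/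
def GoodE (a b : ℕ) (p : Multiset ℕ × ℕ) : Prop :=
  (∀ x ∈ p.1, x ≤ a) ∧ a < Multiset.card p.1 + p.2 ∧ Multiset.card p.1 + p.2 ≤ b

open scoped Classical in
/-- **(E5)** the flow (compare `DG.FlowT`). -/
def FlowE : Prop := ∀ (g : Multiset ℕ → ℕ → ℕ) (a b J S K X w : ℕ), DisG S g → 1 ≤ K → 4 ≤ S →
  4 * K ≤ X → w * X ^ 2 ≤ S ^ 2 → 4 * ((w + 1) * (a + 2)) ≤ X ^ K → (2 * K + 3) * S ≤ J →
  J + 1 ≤ a →
  (∀ k ∈ KT w S, (∀ x ∈ k, x ≤ b) → S * (a + 2) + psi a (K * S) k ≤ S * b) →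
  3 * ∑ p ∈ (KT w S ×ˢ Finset.range (a + 2)).filter (BadE a b J S K), g p.1 p.2 ≤
    ∑ p ∈ (KT w S ×ˢ Finset.range (a + 2)).filter (GoodE a b), g p.1 p.2

/-- **(E6)** the assembly: `DG.AsmR` with `a ≤ b` and `X * w ≤ a * (b - a)` instead of
`a + Z ≤ b`. -/
def AsmX : Prop := ∀ (a b n R X Z K w a0 b0 : ℕ) (lam nu : Fin n → ℕ), Antitone lam →
  ∑ i, lam i = a * b → ((∀ i, 0 < lam i) ∨ n ≤ Z * X ^ 2) → 1 ≤ R → R + 1 < n →
  w = dn lam 1 → Z ^ 2 ≤ w → w < (Z + 1) ^ 2 →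
  1 ≤ K → 16 * K + 16 ≤ X → X ≤ Z → 4 * w ≤ X ^ K → 100 * K * ((Z + 1) * X) ≤ a →
  a ≤ b → X * w ≤ a * (b - a) → Z * X ^ 2 + 2 ≤ a → 1 ≤ a0 → a0 < a →
  a + a0 * (a0 + 2) ≤ w → 3 * (b0 + 1) ≤ a →
  (∀ i : Fin n, 1 ≤ (i : ℕ) → nu i ≤ lam i) →
  (∀ i : Fin n, 1 ≤ (i : ℕ) → ex lam ((i : ℕ) + 1) ≤ nu i) → w = dn nu 1 + a →
  (n ≤ Z * X ^ 2 → 2 * ((w + 1) ^ ((R + 1) * (Z * X ^ 2)) *
    gt (n - R) (Z * X ^ 2 + 1) (low R nu)) ≤ plethMult b0 a0 n nu) →
  plethMult a b n lam ≤ plethMult b a n lam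

/-- The hypotheses near the diagonal: `X w ≤ a (b - a)` instead of `w ≤ (b - a) ^ 2` in
`DG.HyD`. -/
def HyX (a b n X : ℕ) (lam : Fin n → ℕ) : Prop :=
  Antitone lam ∧ ∑ i, lam i = a * b ∧ (∀ i, 0 < lam i) ∧ n ≤ a ∧ a ≤ b ∧ b ≤ 5 * a ∧
    X * dn lam 1 ≤ a * (b - a) ∧ X ^ 20000 ≤ a ∧ 10 ^ 12 * (1 + Real.log a) ^ 7 ≤ X ∧
    dn lam 1 * X ^ 6000 ≤ dn lam 2 ^ 2 ∧ a < ex lam 1 ∧ 3 * a ≤ dn lam 1 ∧
    dn lam 1 * X ^ 13000 ≤ a ^ 2

/-- `HyX`, and the tail behind row `R` is spread and heavy. -/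
def HyXR (a b n X R : ℕ) (lam : Fin n → ℕ) : Prop :=
  HyX a b n X lam ∧ 3 ≤ R ∧ R < n ∧ R ≤ X ^ 14 ∧ X ^ 13 * ex lam R ≤ dn lam R ∧
    dn lam 2 ≤ X ^ 2600 * dn lam R

/-- From `LBL` and `AsmX`, as `Heavy3D`. -/
def Heavy3X : Prop := ∀ (a b n X R : ℕ) (lam : Fin n → ℕ), HyXR a b n X R lam →
  X ^ 2 * dn lam 2 ≤ dn lam 1 → plethMult a b n lam ≤ plethMult b a n lam

/-- From `LBI` and `AsmX`, as `Heavy4D`. -/
def Heavy4X : Prop := ∀ (a b n X R : ℕ) (lam : Fin n → ℕ), HyXR a b n X R lam →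
  dn lam 1 < X ^ 2 * dn lam 2 → plethMult a b n lam ≤ plethMult b a n lam

/-- The tail behind row `R` is light; from `LBC`, `LBR` and `AsmX`. -/
def LightX : Prop := ∀ (a b n X R : ℕ) (lam : Fin n → ℕ), HyX a b n X lam → 3 ≤ R →
  R ≤ X ^ 14 → X ^ 2550 * dn lam R ≤ ex lam 2 → plethMult a b n lam ≤ plethMult b a n lam

/-- **(E7)** the theorem near the diagonal (contains `DG.DiagR`). -/
def DiagX : Prop := ∃ (C : ℝ) (c : ℕ), 0 < C ∧ ∀ a b : ℕ, a ≤ b →
  ∀ (n : ℕ) (lam : Fin n → ℕ), 3 * a ≤ dn lam 1 →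
  C * (1 + Real.log a) ^ c * (dn lam 1 : ℝ) ≤ (a : ℝ) * ((b : ℝ) - a) →
  C * (1 + Real.log a) ^ c * (dn lam 1 : ℝ) ≤ (a : ℝ) ^ 2 →
  (C * (1 + Real.log a) ^ c * (dn lam 1 : ℝ) ≤ (dn lam 2 : ℝ) ^ 2 ∨ dn lam 2 ≤ b - a + 1) →
  plethMult a b n lam ≤ plethMult b a n lam

end Vale.Agent.P181.EX
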